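import Vale.Agent.P227.M.Lap.LD

/-! P227, block Lap/LL: the derivatives of `logLap W` of order `≥ 2` are bounded. -/

set_option linter.all false
set_option autoImplicit false

open MeasureTheory Filter Topology

namespace Vale.Agent.P227.M.Lap

/-- the gradient is onto -/
theorem exists_grad {n : ℕ} {W : E n → ℝ} {c C : ℝ} (h : Reg W c C) (y : E n) :
    ∃ x0 : E n, ∀ z, fderiv ℝ W x0 z = inner ℝ z y := by
  have hcont : Continuous W := h.smooth.continuous
  have hd : Differentiable ℝ W := h.smooth.differentiable (by simp)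
  set R := ‖fderiv ℝ W 0‖ + ‖y‖ with hR
  have hc := h.c_pos
  have hlim : Tendsto (fun x : E n => W x - (innerSL ℝ y) x) (cocompact (E n)) atTop := by
    have h1 : Tendsto (fun t : ℝ => t * (c / 2 * t - R) + W 0) atTop atTop := by
      apply tendsto_atTop_add_const_right
      apply Tendsto.atTop_mul_atTop₀ tendsto_id
      apply tendsto_atTop_add_const_right
      exact tendsto_id.const_mul_atTop (by positivity)
    refine tendsto_atTop_mono (fun x => ?_) (h1.comp (tendsto_norm_cocompact_atTop (E := E n)))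
    have h2 := (taylor_bounds h 0 x).1
    rw [zero_add] at h2
    have h3 : |fderiv ℝ W 0 x| ≤ ‖fderiv ℝ W 0‖ * ‖x‖ := by
      simpa using (fderiv ℝ W 0).le_opNorm x
    have h4 : |(innerSL ℝ y) x| ≤ ‖y‖ * ‖x‖ := by
      simpa using abs_real_inner_le_norm y x
    have h5 := neg_abs_le (fderiv ℝ W 0 x)
    have h6 := le_abs_self ((innerSL ℝ y) x)
    simp only [Function.comp]
    nlinarith
  obtain ⟨x0, hx0⟩ := (hcont.sub (innerSL ℝ y).continuous).exists_forall_le hlim
  refine ⟨x0, fun z => ?_⟩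
  have hmin : IsLocalMin (fun x : E n => W x - (innerSL ℝ y) x) x0 :=
    Eventually.of_forall fun x => hx0 x
  have hf : HasFDerivAt (fun x : E n => W x - (innerSL ℝ y) x) (fderiv ℝ W x0 - innerSL ℝ y) x0 :=
    (hd x0).hasFDerivAt.sub (innerSL ℝ y).hasFDerivAt
  have := hmin.fderiv_eq_zero
  rw [hf.fderiv, sub_eq_zero] at this
  rw [this, innerSL_apply_apply, real_inner_comm]

/-- the density seen from the minimiser -/
noncomputable def gsh {n : ℕ} (W : E n → ℝ) (x0 y z : E n) : ℝ :=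
  Real.exp (-(W (x0 + z) - W x0 - inner ℝ z y))

theorem gsh_pos {n : ℕ} (W : E n → ℝ) (x0 y z : E n) : 0 < gsh W x0 y z := Real.exp_pos _

theorem gsh_le {n : ℕ} {W : E n → ℝ} {c C : ℝ} (h : Reg W c C) {x0 y : E n}
    (h0 : ∀ z, fderiv ℝ W x0 z = inner ℝ z y) (z : E n) :
    gsh W x0 y z ≤ Real.exp (-(c / 2 * ‖z‖ ^ 2)) := by
  apply Real.exp_le_exp.2
  have := (taylor_bounds h x0 z).1
  rw [h0] at this
  linarith

theorem le_gsh {n : ℕ} {W : E n → ℝ} {c C : ℝ} (h : Reg W c C) {x0 y : E n}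
    (h0 : ∀ z, fderiv ℝ W x0 z = inner ℝ z y) (z : E n) :
    Real.exp (-(C / 2 * ‖z‖ ^ 2)) ≤ gsh W x0 y z := by
  apply Real.exp_le_exp.2
  have := (taylor_bounds h x0 z).2
  rw [h0] at this
  linarith

theorem continuous_gsh {n : ℕ} {W : E n → ℝ} {c C : ℝ} (h : Reg W c C) (x0 y : E n) :
    Continuous (gsh W x0 y) := by
  have hcont : Continuous W := h.smooth.continuous
  unfold gsh
  fun_prop

theorem expo_gsh {n : ℕ} {W : E n → ℝ} {c C : ℝ} (h : Reg W c C) {x0 y : E n}
    (h0 : ∀ z, fderiv ℝ W x0 z = inner ℝ z y) : Expo volume (gsh W x0 y) := by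
  refine expo_of_le h.c_pos (continuous_gsh h x0 y) 1 0 fun z => ?_
  rw [abs_of_pos (gsh_pos W x0 y z)]
  simpa using gsh_le h h0 z

theorem lap_gsh_pos {n : ℕ} {W : E n → ℝ} {c C : ℝ} (h : Reg W c C) {x0 y : E n}
    (h0 : ∀ z, fderiv ℝ W x0 z = inner ℝ z y) (t : E n) : 0 < lap (BB n) volume (gsh W x0 y) t := by
  refine lap_pos (expo_gsh h h0) (fun x => (Real.exp_pos _).le) ?_ t
  have : {x : E n | gsh W x0 y x ≠ 0} = Set.univ := by
    ext x; simp [gsh, (Real.exp_pos _).ne']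
  rw [this]
  exact (Measure.measure_univ_ne_zero).2 (NeZero.ne _)

theorem logLap_shift {n : ℕ} {W : E n → ℝ} {c C : ℝ} (h : Reg W c C) {x0 y : E n}
    (h0 : ∀ z, fderiv ℝ W x0 z = inner ℝ z y) (t : E n) :
    logLap W (y + t) = (inner ℝ x0 y - W x0) + inner ℝ x0 t
      + Real.log (lap (BB n) volume (gsh W x0 y) t) := by
  have e : ∫ x, Real.exp (inner ℝ x (y + t) - W x)
      = Real.exp ((inner ℝ x0 y - W x0) + inner ℝ x0 t) * lap (BB n) volume (gsh W x0 y) t := by
    rw [← integral_add_left_eq_self (μ := (volume : Measure (E n)))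
      (fun x => Real.exp (inner ℝ x (y + t) - W x)) x0]
    unfold lap
    rw [← integral_const_mul]
    refine integral_congr_ae (Eventually.of_forall fun z => ?_)
    simp only [gsh, smul_eq_mul, BB_apply]
    rw [← Real.exp_add, ← Real.exp_add]
    congr 1
    simp only [inner_add_left, inner_add_right]
    ring
  unfold logLap
  rw [e, Real.log_mul (Real.exp_pos _).ne' (lap_gsh_pos h h0 t).ne', Real.log_exp]

theorem norm_iteratedFDeriv_add_affine {n : ℕ} {f : E n → ℝ} (hf : ContDiff ℝ (⊤ : ℕ∞) f)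
    (a : ℝ) (w : E n) (m : ℕ) (t : E n) :
    ‖iteratedFDeriv ℝ (m + 2) (fun t => a + inner ℝ w t + f t) t‖ = ‖iteratedFDeriv ℝ (m + 2) f t‖ := by
  have hd : Differentiable ℝ f := hf.differentiable (by simp)
  rw [← norm_iteratedFDeriv_fderiv, ← norm_iteratedFDeriv_fderiv (n := m + 1),
    ← norm_iteratedFDeriv_fderiv, ← norm_iteratedFDeriv_fderiv (n := m)]
  have e : fderiv ℝ (fun t => a + inner ℝ w t + f t) = fun t => innerSL ℝ w + fderiv ℝ f t := by
    funext t
    have h1 : HasFDerivAt (fun t : E n => a + (innerSL ℝ w) t + f t) (innerSL ℝ w + fderiv ℝ f t) t :=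
      ((innerSL ℝ w).hasFDerivAt.const_add a).add (hd t).hasFDerivAt
    exact h1.fderiv
  rw [e]
  have e2 : fderiv ℝ (fun t => innerSL ℝ w + fderiv ℝ f t) = fderiv ℝ (fderiv ℝ f) := by
    funext t
    exact fderiv_const_add _
  rw [e2]

/-- derivatives of order `≥ 2` of `logLap W` are bounded -/
theorem logLap_bdd {n : ℕ} {W : E n → ℝ} {c C : ℝ} (h : Reg W c C) :
    ∀ k : ℕ, 2 ≤ k → ∃ B : ℝ, ∀ y, ‖iteratedFDeriv ℝ k (logLap W) y‖ ≤ B := by
  intro k hk
  set A : ℕ → ℝ := fun i => ∫ x : E n, (‖BB n‖ * ‖x‖) ^ i * Real.exp (-(c / 2 * ‖x‖ ^ 2)) with hA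
  -- integrability of the moments
  have hint : ∀ i : ℕ, Integrable (fun x : E n => (‖BB n‖ * ‖x‖) ^ i * Real.exp (-(c / 2 * ‖x‖ ^ 2))) volume := by
    intro i
    refine Integrable.mono' ((integrable_gauss h.c_pos (i : ℝ)).const_mul (‖BB n‖ ^ i)) (by fun_prop) ?_
    refine Eventually.of_forall fun x => ?_
    rw [Real.norm_of_nonneg (by positivity), mul_pow, mul_assoc]
    have h1 : ‖x‖ ^ i ≤ Real.exp ((i : ℝ) * ‖x‖) := by
      rw [Real.exp_nat_mul]
      exact pow_le_pow_left₀ (norm_nonneg _) (by linarith [Real.add_one_le_exp ‖x‖]) i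
    gcongr
  -- bounds of the total mass
  set Zl : ℝ := ∫ x : E n, min (Real.exp (-(C / 2 * ‖x‖ ^ 2))) (Real.exp (-(c / 2 * ‖x‖ ^ 2))) with hZl
  have hintm : Integrable (fun x : E n => min (Real.exp (-(C / 2 * ‖x‖ ^ 2))) (Real.exp (-(c / 2 * ‖x‖ ^ 2)))) volume := by
    refine Integrable.mono' (hint 0) (by fun_prop) (Eventually.of_forall fun x => ?_)
    rw [Real.norm_of_nonneg (by positivity)]
    simpa using min_le_right _ _
  have hZlpos : 0 < Zl := by
    rw [hZl, integral_pos_iff_support_of_nonneg (fun x => by positivity) hintm]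
    have : Function.support (fun x : E n => min (Real.exp (-(C / 2 * ‖x‖ ^ 2))) (Real.exp (-(c / 2 * ‖x‖ ^ 2)))) = Set.univ := by
      ext x
      simp only [Function.mem_support, Set.mem_univ, iff_true]
      exact (lt_min (Real.exp_pos _) (Real.exp_pos _)).ne'
    rw [this]
    exact pos_iff_ne_zero.2 ((Measure.measure_univ_ne_zero).2 (NeZero.ne _))
  obtain ⟨K, hK⟩ := log_deriv_bound k Zl (A 0) hZlpos
  set D : ℝ := 1 + ∑ i ∈ Finset.range (k + 1), |A i| with hD
  have hD1 : 1 ≤ D := by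
    have : 0 ≤ ∑ i ∈ Finset.range (k + 1), |A i| := Finset.sum_nonneg fun i _ => abs_nonneg _
    linarith
  refine ⟨(k.factorial : ℝ) * K * D ^ k, fun y => ?_⟩
  obtain ⟨x0, h0⟩ := exists_grad h y
  have hexpo := expo_gsh h h0
  have hF : ContDiff ℝ (⊤ : ℕ∞) (lap (BB n) volume (gsh W x0 y)) := contDiff_lap (BB n) hexpo
  have hpos := lap_gsh_pos h h0
  -- the value at 0
  have hval : lap (BB n) volume (gsh W x0 y) 0 = ∫ z, gsh W x0 y z := by
    unfold lap
    simp
  have hgi : Integrable (gsh W x0 y) volume := by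
    have := integrable_lap hexpo (BB n) (0 : E n)
    simpa using this
  have hv1 : Zl ≤ lap (BB n) volume (gsh W x0 y) 0 := by
    rw [hval]
    exact integral_mono hintm hgi fun z => (min_le_left _ _).trans (le_gsh h h0 z)
  have hv2 : lap (BB n) volume (gsh W x0 y) 0 ≤ A 0 := by
    rw [hval, hA]
    refine integral_mono hgi (hint 0) fun z => ?_
    simpa using gsh_le h h0 z
  -- derivative bounds at 0
  have hder : ∀ i, 1 ≤ i → i ≤ k → ‖iteratedFDeriv ℝ i (lap (BB n) volume (gsh W x0 y)) 0‖ ≤ D ^ i := by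
    intro i hi1 hik
    have h1 := norm_iteratedFDeriv_lap_le (μ := (volume : Measure (E n))) (BB n)
      (fun x : E n => Real.exp (-(c / 2 * ‖x‖ ^ 2))) (0 : E n)
      (fun j => by simpa using hint j) i (g := gsh W x0 y) 0 hexpo
      (fun x => by
        rw [pow_zero, one_mul, Real.norm_of_nonneg (gsh_pos W x0 y x).le]
        exact gsh_le h h0 x)
    have h2 : (∫ x : E n, Real.exp ((BB n) x 0) * ((‖BB n‖ * ‖x‖) ^ (0 + i) * Real.exp (-(c / 2 * ‖x‖ ^ 2)))) = A i := by
      rw [hA]; simp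
    rw [h2] at h1
    have h3 : A i ≤ D := by
      have := Finset.single_le_sum (f := fun i => |A i|) (s := Finset.range (k + 1))
        (fun j _ => abs_nonneg _) (Finset.mem_range.2 (Nat.lt_succ_of_le hik))
      have h4 := le_abs_self (A i)
      linarith
    exact h1.trans (h3.trans (le_self_pow₀ hD1 (by omega)))
  -- composition with `log`
  have hcomp : ‖iteratedFDeriv ℝ k (fun t => Real.log (lap (BB n) volume (gsh W x0 y) t)) 0‖
      ≤ (k.factorial : ℝ) * K * D ^ k := by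
    rw [← iteratedFDerivWithin_univ]
    have hlog : ContDiffOn ℝ (⊤ : ℕ∞) Real.log (Set.Ioi 0) := fun x hx =>
      ((Real.contDiffAt_log (n := ((⊤ : ℕ∞) : WithTop ℕ∞))).2 (ne_of_gt hx)).contDiffWithinAt
    refine norm_iteratedFDerivWithin_comp_le (N := ((⊤ : ℕ∞) : WithTop ℕ∞)) hlog hF.contDiffOn
      (by exact_mod_cast le_top) (uniqueDiffOn_Ioi 0) uniqueDiffOn_univ (fun t _ => hpos t)
      (Set.mem_univ _) (fun i hi => hK i hi _ ⟨hv1, hv2⟩) (fun i h1 h2 => ?_)
    rw [iteratedFDerivWithin_univ]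
    exact hder i h1 h2
  have hsmooth : ContDiff ℝ (⊤ : ℕ∞) (fun t => Real.log (lap (BB n) volume (gsh W x0 y) t)) :=
    hF.log fun t => (hpos t).ne'
  have e1 : iteratedFDeriv ℝ k (logLap W) y = iteratedFDeriv ℝ k (fun t => logLap W (y + t)) 0 := by
    have := iteratedFDeriv_comp_add_left (𝕜 := ℝ) (f := logLap W) k y (0 : E n)
    rw [this, add_zero]
  rw [e1, show (fun t => logLap W (y + t)) = fun t => (inner ℝ x0 y - W x0) + inner ℝ x0 t
      + Real.log (lap (BB n) volume (gsh W x0 y) t) from funext fun t => logLap_shift h h0 t]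
  obtain ⟨m, rfl⟩ : ∃ m, k = m + 2 := ⟨k - 2, by omega⟩
  rw [norm_iteratedFDeriv_add_affine hsmooth]
  exact hcomp

end Vale.Agent.P227.M.Lap
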