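import Mathlib.Analysis.Calculus.ParametricIntegral
import Mathlib.Analysis.Calculus.ContDiff.Basic
import Mathlib.Analysis.SpecialFunctions.ExpDeriv
import Mathlib.Analysis.SpecialFunctions.Log.Deriv
import Mathlib.Analysis.Calculus.IteratedDeriv.Defs
import Mathlib.MeasureTheory.Integral.Bochner.ContinuousLinearMap
import Mathlib.Tactic

/-! P227, block Lap: Laplace integrals `F y = ∫ exp (B x y) • g x` are smooth; line derivatives;
first three derivatives of `log F` are mean, variance and third central moment. -/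

set_option linter.all false
set_option autoImplicit false

open MeasureTheory Filter Topology

namespace Vale.Agent.P227.M.Lap

universe u

variable {E : Type*} [NormedAddCommGroup E] [NormedSpace ℝ E] [MeasurableSpace E] [BorelSpace E]
  [SecondCountableTopology E]
variable {E' : Type u} [NormedAddCommGroup E'] [NormedSpace ℝ E']
variable {G : Type u} [NormedAddCommGroup G] [NormedSpace ℝ G]

/-- the Laplace integral -/
noncomputable def lap (B : E →L[ℝ] E' →L[ℝ] ℝ) (μ : Measure E) (g : E → G) (y : E') : G :=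
  ∫ x, Real.exp (B x y) • g x ∂μ

/-- all exponential moments are finite -/
def Expo (μ : Measure E) (g : E → G) : Prop :=
  AEStronglyMeasurable g μ ∧ ∀ R : ℝ, Integrable (fun x => Real.exp (R * ‖x‖) * ‖g x‖) μ

theorem Expo.of_le {G' : Type*} [NormedAddCommGroup G'] [NormedSpace ℝ G'] {μ : Measure E}
    {g : E → G} (hg : Expo μ g) {h : E → G'} (hm : AEStronglyMeasurable h μ) (C R0 : ℝ)
    (hle : ∀ x, ‖h x‖ ≤ C * (Real.exp (R0 * ‖x‖) * ‖g x‖)) :
    AEStronglyMeasurable h μ ∧ ∀ R : ℝ, Integrable (fun x => Real.exp (R * ‖x‖) * ‖h x‖) μ := by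
  refine ⟨hm, fun R => ?_⟩
  refine Integrable.mono' ((hg.2 (R + R0)).const_mul C) ?_ ?_
  · exact AEStronglyMeasurable.mul (by fun_prop) hm.norm
  · refine Eventually.of_forall fun x => ?_
    have h0 : 0 ≤ Real.exp (R * ‖x‖) := (Real.exp_pos _).le
    rw [Real.norm_of_nonneg (by positivity), add_mul, Real.exp_add]
    calc Real.exp (R * ‖x‖) * ‖h x‖
        ≤ Real.exp (R * ‖x‖) * (C * (Real.exp (R0 * ‖x‖) * ‖g x‖)) :=
          mul_le_mul_of_nonneg_left (hle x) h0
      _ = C * (Real.exp (R * ‖x‖) * Real.exp (R0 * ‖x‖) * ‖g x‖) := by ring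

theorem le_exp_norm (x : E) : ‖x‖ ≤ Real.exp (1 * ‖x‖) := by
  rw [one_mul]; linarith [Real.add_one_le_exp ‖x‖]

theorem Expo.smulRight {μ : Measure E} {g : E → G} (hg : Expo μ g) (B : E →L[ℝ] E' →L[ℝ] ℝ) :
    Expo μ (fun x => (B x).smulRight (g x)) := by
  refine Expo.of_le hg ?_ ‖B‖ 1 fun x => ?_
  · have hc : Continuous (fun p : (E' →L[ℝ] ℝ) × G => p.1.smulRight p.2) := by
      exact (ContinuousLinearMap.smulRightL ℝ E' G).continuous₂
    have h1 : AEStronglyMeasurable (fun x => ((B x : E' →L[ℝ] ℝ), g x)) μ :=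
      (B.continuous.aestronglyMeasurable).prodMk hg.1
    exact hc.comp_aestronglyMeasurable h1
  · rw [ContinuousLinearMap.norm_smulRight_apply]
    calc ‖B x‖ * ‖g x‖ ≤ (‖B‖ * ‖x‖) * ‖g x‖ := by
          gcongr; exact B.le_opNorm x
      _ ≤ (‖B‖ * Real.exp (1 * ‖x‖)) * ‖g x‖ := by
          gcongr; exact le_exp_norm x
      _ = _ := by ring

theorem Expo.smul {μ : Measure E} {g : E → G} (hg : Expo μ g) (B : E →L[ℝ] E' →L[ℝ] ℝ) (v : E') :
    Expo μ (fun x => (B x v) • g x) := by
  refine Expo.of_le hg ?_ (‖B‖ * ‖v‖) 1 fun x => ?_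
  · have hc : Continuous (fun x => B x v) := by fun_prop
    exact (hc.aestronglyMeasurable).smul hg.1
  · rw [norm_smul]
    calc ‖B x v‖ * ‖g x‖ ≤ (‖B‖ * ‖x‖ * ‖v‖) * ‖g x‖ := by
          gcongr; exact B.le_opNorm₂ x v
      _ ≤ (‖B‖ * Real.exp (1 * ‖x‖) * ‖v‖) * ‖g x‖ := by
          gcongr; exact le_exp_norm x
      _ = _ := by ring

theorem exp_le (B : E →L[ℝ] E' →L[ℝ] ℝ) (x : E) (y : E') {R : ℝ} (hy : ‖y‖ ≤ R) :
    Real.exp (B x y) ≤ Real.exp (‖B‖ * R * ‖x‖) := by
  apply Real.exp_le_exp.2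
  calc B x y ≤ ‖B x y‖ := Real.le_norm_self _
    _ ≤ ‖B‖ * ‖x‖ * ‖y‖ := B.le_opNorm₂ x y
    _ ≤ ‖B‖ * ‖x‖ * R := by gcongr
    _ = _ := by ring

theorem measurable_lap {μ : Measure E} {g : E → G} (hg : Expo μ g) (B : E →L[ℝ] E' →L[ℝ] ℝ)
    (y : E') : AEStronglyMeasurable (fun x => Real.exp (B x y) • g x) μ := by
  have hc : Continuous (fun x => Real.exp (B x y)) := by fun_prop
  exact (hc.aestronglyMeasurable).smul hg.1

theorem integrable_lap {μ : Measure E} {g : E → G} (hg : Expo μ g) (B : E →L[ℝ] E' →L[ℝ] ℝ)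
    (y : E') : Integrable (fun x => Real.exp (B x y) • g x) μ := by
  refine Integrable.mono' (hg.2 (‖B‖ * ‖y‖)) (measurable_lap hg B y) ?_
  refine Eventually.of_forall fun x => ?_
  rw [norm_smul, Real.norm_of_nonneg (Real.exp_pos _).le]
  gcongr
  exact Real.exp_le_exp.1 (exp_le B x y le_rfl)

theorem hasFDerivAt_lap {μ : Measure E} {g : E → G} (hg : Expo μ g) (B : E →L[ℝ] E' →L[ℝ] ℝ)
    (y : E') : HasFDerivAt (lap B μ g) (lap B μ (fun x => (B x).smulRight (g x)) y) y := by
  have hg' : Expo μ (fun x => (B x).smulRight (g x)) := hg.smulRight B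
  unfold lap
  refine hasFDerivAt_integral_of_dominated_of_fderiv_le (𝕜 := ℝ) (H := E') (E := G)
    (F := fun (z : E') (x : E) => Real.exp (B x z) • g x)
    (F' := fun (z : E') (x : E) => Real.exp (B x z) • (B x).smulRight (g x))
    (x₀ := y) (s := Metric.ball y 1)
    (bound := fun x : E => Real.exp (‖B‖ * (‖y‖ + 1) * ‖x‖) * ‖(B x).smulRight (g x)‖)
    (Metric.ball_mem_nhds y one_pos) ?_ ?_ ?_ ?_ ?_ ?_
  · exact Eventually.of_forall fun z => measurable_lap hg B z
  · exact integrable_lap hg B y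
  · exact measurable_lap hg' B y
  · refine Eventually.of_forall fun x z hz => ?_
    rw [norm_smul, Real.norm_of_nonneg (Real.exp_pos _).le]
    have : ‖z‖ ≤ ‖y‖ + 1 := by
      have h1 : ‖z - y‖ < 1 := by simpa [dist_eq_norm] using hz
      have h2 : ‖z‖ ≤ ‖z - y‖ + ‖y‖ := by simpa using norm_add_le (z - y) y
      linarith
    exact mul_le_mul_of_nonneg_right (exp_le B x z this) (norm_nonneg _)
  · exact hg'.2 _
  · refine Eventually.of_forall fun x z hz => ?_
    have h0 : HasFDerivAt (fun z : E' => B x z) (B x) z := (B x).hasFDerivAt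
    have h2 := (h0.exp).smul_const (g x)
    convert h2 using 1
    ext w
    simp [smul_smul]

theorem contDiff_lap_nat {μ : Measure E} (B : E →L[ℝ] E' →L[ℝ] ℝ) (n : ℕ) :
    ∀ {G : Type u} [NormedAddCommGroup G] [NormedSpace ℝ G] {g : E → G}, Expo μ g →
      ContDiff ℝ n (lap B μ g) := by
  induction n with
  | zero =>
    intro G _ _ g hg
    rw [Nat.cast_zero, contDiff_zero]
    exact continuous_iff_continuousAt.2 fun y => (hasFDerivAt_lap hg B y).continuousAt
  | succ n ih =>
    intro G _ _ g hg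
    rw [Nat.cast_succ, contDiff_succ_iff_fderiv]
    refine ⟨fun y => (hasFDerivAt_lap hg B y).differentiableAt, by simp, ?_⟩
    have : fderiv ℝ (lap B μ g) = lap B μ (fun x => (B x).smulRight (g x)) := by
      funext y
      exact (hasFDerivAt_lap hg B y).fderiv
    rw [this]
    exact ih (hg.smulRight B)

theorem contDiff_lap {μ : Measure E} (B : E →L[ℝ] E' →L[ℝ] ℝ) {g : E → G} (hg : Expo μ g) :
    ContDiff ℝ (⊤ : ℕ∞) (lap B μ g) := by
  rw [contDiff_infty]
  exact fun n => contDiff_lap_nat B n hg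

theorem fderiv_lap_apply {μ : Measure E} {g : E → G} [CompleteSpace G] (hg : Expo μ g)
    (B : E →L[ℝ] E' →L[ℝ] ℝ) (y v : E') :
    fderiv ℝ (lap B μ g) y v = lap B μ (fun x => (B x v) • g x) y := by
  rw [(hasFDerivAt_lap hg B y).fderiv]
  unfold lap
  rw [ContinuousLinearMap.integral_apply (integrable_lap (hg.smulRight B) B y)]
  refine integral_congr_ae (Eventually.of_forall fun x => ?_)
  simp

/-- derivative along a line -/
theorem hasDerivAt_line {μ : Measure E} {g : E → G} [CompleteSpace G] (hg : Expo μ g)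
    (B : E →L[ℝ] E' →L[ℝ] ℝ) (y v : E') (t : ℝ) :
    HasDerivAt (fun t : ℝ => lap B μ g (y + t • v))
      (lap B μ (fun x => (B x v) • g x) (y + t • v)) t := by
  have h1 : HasDerivAt (fun t : ℝ => y + t • v) v t := by
    simpa using ((hasDerivAt_id t).smul_const v).const_add y
  have h2 := (hasFDerivAt_lap hg B (y + t • v)).comp_hasDerivAt t h1
  have h3 := fderiv_lap_apply hg B (y + t • v) v
  rw [(hasFDerivAt_lap hg B (y + t • v)).fderiv] at h3
  rw [h3] at h2
  exact h2

/-- `j`-th line derivative -/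
theorem iteratedDeriv_line {μ : Measure E} (B : E →L[ℝ] E' →L[ℝ] ℝ) (y v : E') (j : ℕ) :
    ∀ {g : E → G} [CompleteSpace G], Expo μ g →
    iteratedDeriv j (fun t : ℝ => lap B μ g (y + t • v))
      = fun t : ℝ => lap B μ (fun x => (B x v) ^ j • g x) (y + t • v) := by
  induction j with
  | zero => intro g _ hg; simp
  | succ j ih =>
    intro g _ hg
    rw [iteratedDeriv_succ', show deriv (fun t : ℝ => lap B μ g (y + t • v))
      = fun t : ℝ => lap B μ (fun x => (B x v) • g x) (y + t • v) from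
        funext fun t => (hasDerivAt_line hg B y v t).deriv, ih (hg.smul B v)]
    funext t
    congr 1
    funext x
    rw [smul_smul, ← pow_succ]

/-! ### The logarithm -/

section real

variable {E' : Type} [NormedAddCommGroup E'] [NormedSpace ℝ E']
variable {μ : Measure E} {g : E → ℝ} {B : E →L[ℝ] E' →L[ℝ] ℝ}

theorem Expo.pow (hg : Expo μ g) (B : E →L[ℝ] E' →L[ℝ] ℝ) (v : E') (j : ℕ) :
    Expo μ (fun x => (B x v) ^ j • g x) := by
  induction j with
  | zero => simpa using hg
  | succ j ih =>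
    have := ih.smul B v
    convert this using 2 with x
    rw [smul_smul, ← pow_succ']

theorem lap_pos (hg : Expo μ g) (h0 : ∀ x, 0 ≤ g x) (h1 : μ {x | g x ≠ 0} ≠ 0) (y : E') :
    0 < lap B μ g y := by
  unfold lap
  rw [integral_pos_iff_support_of_nonneg (fun x => by
    simpa using mul_nonneg (Real.exp_pos _).le (h0 x)) (integrable_lap hg B y)]
  have : Function.support (fun x => Real.exp (B x y) • g x) = {x | g x ≠ 0} := by
    ext x
    simp [Function.mem_support, (Real.exp_pos _).ne']
  rw [this]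
  exact pos_iff_ne_zero.2 h1

/-- mean of `⟨x, v⟩` -/
noncomputable def mean (B : E →L[ℝ] E' →L[ℝ] ℝ) (μ : Measure E) (g : E → ℝ) (v y : E') : ℝ :=
  lap B μ (fun x => (B x v) * g x) y / lap B μ g y

/-- `j`-th central moment of `⟨x, v⟩` -/
noncomputable def cmom (B : E →L[ℝ] E' →L[ℝ] ℝ) (μ : Measure E) (g : E → ℝ) (v y : E') (j : ℕ) : ℝ :=
  lap B μ (fun x => (B x v - mean B μ g v y) ^ j * g x) y / lap B μ g y

theorem contDiff_log_lap (hg : Expo μ g) (hpos : ∀ y, 0 < lap B μ g y) :
    ContDiff ℝ (⊤ : ℕ∞) (fun y => Real.log (lap B μ g y)) :=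
  (contDiff_lap B hg).log fun y => (hpos y).ne'

theorem cmom_two (hg : Expo μ g) (hpos : ∀ y, 0 < lap B μ g y) (v y : E') :
    cmom B μ g v y 2 = lap B μ (fun x => (B x v) ^ 2 • g x) y / lap B μ g y
      - (mean B μ g v y) ^ 2 := by
  have h0 := (hpos y).ne'
  set m := mean B μ g v y with hm
  have e1 : lap B μ (fun x => (B x v) * g x) y = m * lap B μ g y := by
    rw [hm, mean]; field_simp
  have : lap B μ (fun x => (B x v - m) ^ 2 * g x) y
      = lap B μ (fun x => (B x v) ^ 2 • g x) y - 2 * m * lap B μ (fun x => (B x v) * g x) y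
        + m ^ 2 * lap B μ g y := by
    unfold lap
    rw [← integral_const_mul, ← integral_const_mul, ← integral_sub, ← integral_add]
    · refine integral_congr_ae (Eventually.of_forall fun x => ?_)
      simp only [smul_eq_mul]; ring
    · exact ((integrable_lap (hg.pow B v 2) B y)).sub
        ((integrable_lap (hg.smul B v) B y).const_mul _)
    · exact (integrable_lap hg B y).const_mul _
    · exact integrable_lap (hg.pow B v 2) B y
    · exact (integrable_lap (hg.smul B v) B y).const_mul _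
  rw [cmom, this, e1]
  field_simp
  ring

theorem cmom_three (hg : Expo μ g) (hpos : ∀ y, 0 < lap B μ g y) (v y : E') :
    cmom B μ g v y 3 = lap B μ (fun x => (B x v) ^ 3 • g x) y / lap B μ g y
      - 3 * mean B μ g v y * (lap B μ (fun x => (B x v) ^ 2 • g x) y / lap B μ g y)
      + 2 * (mean B μ g v y) ^ 3 := by
  have h0 := (hpos y).ne'
  set m := mean B μ g v y with hm
  have e1 : lap B μ (fun x => (B x v) * g x) y = m * lap B μ g y := by
    rw [hm, mean]; field_simp
  have : lap B μ (fun x => (B x v - m) ^ 3 * g x) y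
      = (lap B μ (fun x => (B x v) ^ 3 • g x) y - 3 * m * lap B μ (fun x => (B x v) ^ 2 • g x) y)
        + (3 * m ^ 2 * lap B μ (fun x => (B x v) * g x) y
        - m ^ 3 * lap B μ g y) := by
    unfold lap
    rw [← integral_const_mul, ← integral_const_mul, ← integral_const_mul, ← integral_sub,
      ← integral_sub, ← integral_add]
    · refine integral_congr_ae (Eventually.of_forall fun x => ?_)
      simp only [smul_eq_mul]; ring
    · exact ((integrable_lap (hg.pow B v 3) B y)).sub
        ((integrable_lap (hg.pow B v 2) B y).const_mul _)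
    · exact ((integrable_lap (hg.smul B v) B y).const_mul _).sub
        ((integrable_lap hg B y).const_mul _)
    · exact (integrable_lap (hg.smul B v) B y).const_mul _
    · exact (integrable_lap hg B y).const_mul _
    · exact integrable_lap (hg.pow B v 3) B y
    · exact (integrable_lap (hg.pow B v 2) B y).const_mul _
  rw [cmom, this, e1]
  field_simp
  ring

theorem hasDerivAt_log (hg : Expo μ g) (hpos : ∀ y, 0 < lap B μ g y) (y v : E') (t : ℝ) :
    HasDerivAt (fun t : ℝ => Real.log (lap B μ g (y + t • v))) (mean B μ g v (y + t • v)) t := by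
  have := (hasDerivAt_line hg B y v t).log (hpos _).ne'
  simpa [mean] using this

theorem hasDerivAt_mean (hg : Expo μ g) (hpos : ∀ y, 0 < lap B μ g y) (y v : E') (t : ℝ) :
    HasDerivAt (fun t : ℝ => mean B μ g v (y + t • v)) (cmom B μ g v (y + t • v) 2) t := by
  have h1 := hasDerivAt_line (hg.smul B v) B y v t
  have h2 := (h1.div (hasDerivAt_line hg B y v t) (hpos _).ne')
  refine HasDerivAt.congr_deriv h2 ?_
  have h0 := (hpos (y + t • v)).ne'
  have e3 : (fun x => (B x v) • (B x v) • g x) = fun x => (B x v) ^ 2 • g x := by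
    funext x; rw [smul_smul, pow_two]
  have e1 : lap B μ (fun x => (B x v) • g x) (y + t • v)
      = mean B μ g v (y + t • v) * lap B μ g (y + t • v) := by
    rw [mean]; simp only [smul_eq_mul]; field_simp
  rw [cmom_two hg hpos, e3, e1]
  field_simp

theorem hasDerivAt_cmom_two (hg : Expo μ g) (hpos : ∀ y, 0 < lap B μ g y) (y v : E') (t : ℝ) :
    HasDerivAt (fun t : ℝ => cmom B μ g v (y + t • v) 2) (cmom B μ g v (y + t • v) 3) t := by
  have h1 := hasDerivAt_line (hg.pow B v 2) B y v t
  have h2 := (h1.div (hasDerivAt_line hg B y v t) (hpos _).ne').sub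
    ((hasDerivAt_mean hg hpos y v t).pow 2)
  have e : (fun t : ℝ => cmom B μ g v (y + t • v) 2) = fun t : ℝ =>
      lap B μ (fun x => (B x v) ^ 2 • g x) (y + t • v) / lap B μ g (y + t • v)
      - (mean B μ g v (y + t • v)) ^ 2 := funext fun t => cmom_two hg hpos v _
  rw [e]
  refine HasDerivAt.congr_deriv h2 ?_
  have h0 := (hpos (y + t • v)).ne'
  rw [cmom_two hg hpos, cmom_three hg hpos]
  have e3 : (fun x => (B x v) • (B x v) ^ 2 • g x) = fun x => (B x v) ^ 3 • g x := by
    funext x; simp only [smul_smul]; ring_nf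
  rw [e3]
  have e1 : lap B μ (fun x => (B x v) • g x) (y + t • v)
      = mean B μ g v (y + t • v) * lap B μ g (y + t • v) := by
    rw [mean]; simp only [smul_eq_mul]; field_simp
  rw [e1]
  field_simp
  ring

end real

end Vale.Agent.P227.M.Lap
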