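import Vale.Agent.P227.M.Defs
import Vale.Agent.P227.M.Lap.Smooth

/-! P227, block Lap/LL: `logLap W` is smooth; line derivatives
of order 1, 2, 3 are mean, variance and third central moment of the tilted measure. -/

set_option linter.all false
set_option autoImplicit false

open MeasureTheory Filter Topology

namespace Vale.Agent.P227.M.Lap

universe u

section abstractBound

variable {E : Type*} [NormedAddCommGroup E] [NormedSpace ℝ E] [MeasurableSpace E] [BorelSpace E]
  [SecondCountableTopology E]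
variable {E' : Type u} [NormedAddCommGroup E'] [NormedSpace ℝ E']

theorem norm_lap_le {G : Type u} [NormedAddCommGroup G] [NormedSpace ℝ G] {μ : Measure E}
    (B : E →L[ℝ] E' →L[ℝ] ℝ) {g : E → G} {ρ : E → ℝ} {y : E'}
    (hle : ∀ x, ‖g x‖ ≤ ρ x) (hi : Integrable (fun x => Real.exp (B x y) * ρ x) μ) :
    ‖lap B μ g y‖ ≤ ∫ x, Real.exp (B x y) * ρ x ∂μ := by
  unfold lap
  refine norm_integral_le_of_norm_le hi (Eventually.of_forall fun x => ?_)
  rw [norm_smul, Real.norm_of_nonneg (Real.exp_pos _).le]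
  exact mul_le_mul_of_nonneg_left (hle x) (Real.exp_pos _).le

theorem norm_iteratedFDeriv_lap_le {μ : Measure E} (B : E →L[ℝ] E' →L[ℝ] ℝ) (ρ : E → ℝ) (y : E')
    (hi : ∀ k : ℕ, Integrable (fun x => Real.exp (B x y) * ((‖B‖ * ‖x‖) ^ k * ρ x)) μ) (i : ℕ) :
    ∀ {G : Type u} [NormedAddCommGroup G] [NormedSpace ℝ G] {g : E → G} (m : ℕ), Expo μ g →
      (∀ x, ‖g x‖ ≤ (‖B‖ * ‖x‖) ^ m * ρ x) →
      ‖iteratedFDeriv ℝ i (lap B μ g) y‖ ≤
        ∫ x, Real.exp (B x y) * ((‖B‖ * ‖x‖) ^ (m + i) * ρ x) ∂μ := by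
  induction i with
  | zero =>
    intro G _ _ g m hg hle
    rw [norm_iteratedFDeriv_zero]
    exact norm_lap_le B hle (hi m)
  | succ i ih =>
    intro G _ _ g m hg hle
    rw [← norm_iteratedFDeriv_fderiv, show fderiv ℝ (lap B μ g) = lap B μ (fun x => (B x).smulRight (g x))
      from funext fun y => (hasFDerivAt_lap hg B y).fderiv]
    have := ih (g := fun x => (B x).smulRight (g x)) (m + 1) (hg.smulRight B) (fun x => by
      rw [ContinuousLinearMap.norm_smulRight_apply]
      calc ‖B x‖ * ‖g x‖ ≤ (‖B‖ * ‖x‖) * ((‖B‖ * ‖x‖) ^ m * ρ x) := by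
            gcongr
            · exact B.le_opNorm x
            · exact hle x
        _ = _ := by ring)
    rw [show m + (i + 1) = m + 1 + i by ring]
    exact this

end abstractBound

/-- all derivatives of `log` up to order `k` are bounded on compact subsets of `(0,∞)` -/
theorem log_deriv_bound (k : ℕ) (a b : ℝ) (ha : 0 < a) :
    ∃ C : ℝ, ∀ i ≤ k, ∀ r ∈ Set.Icc a b, ‖iteratedFDerivWithin ℝ i Real.log (Set.Ioi 0) r‖ ≤ C := by
  have hc : ContDiffOn ℝ (⊤ : ℕ∞) Real.log (Set.Ioi 0) := fun x hx =>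
    ((Real.contDiffAt_log (n := ((⊤ : ℕ∞) : WithTop ℕ∞))).2 (ne_of_gt hx)).contDiffWithinAt
  have h1 : ∀ i : ℕ, ∃ C : ℝ, ∀ r ∈ Set.Icc a b,
      ‖iteratedFDerivWithin ℝ i Real.log (Set.Ioi 0) r‖ ≤ C := by
    intro i
    have h2 : ContinuousOn (fun r => iteratedFDerivWithin ℝ i Real.log (Set.Ioi 0) r) (Set.Ioi 0) :=
      hc.continuousOn_iteratedFDerivWithin (by exact_mod_cast le_top) (uniqueDiffOn_Ioi 0)
    have h3 : ContinuousOn (fun r => ‖iteratedFDerivWithin ℝ i Real.log (Set.Ioi 0) r‖) (Set.Icc a b) :=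
      (h2.mono fun r hr => lt_of_lt_of_le ha hr.1).norm
    obtain ⟨C, hC⟩ := (isCompact_Icc (a := a) (b := b)).exists_bound_of_continuousOn h3
    refine ⟨C, fun r hr => ?_⟩
    have := hC r hr
    rwa [norm_norm] at this
  choose C hC using h1
  refine ⟨∑ i ∈ Finset.range (k + 1), |C i|, fun i hi r hr => ?_⟩
  calc _ ≤ C i := hC i r hr
    _ ≤ |C i| := le_abs_self _
    _ ≤ _ := Finset.single_le_sum (f := fun i => |C i|) (fun j _ => abs_nonneg _)
      (Finset.mem_range.2 (by omega))

/-- Hessian form: `qf (hess W x) v = D²W(x)(v,v)` -/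
theorem qf_hess {n : ℕ} {W : E n → ℝ} (hW : ContDiff ℝ 2 W) (x v : E n) :
    qf (hess W x) v = fderiv ℝ (fderiv ℝ W) x v v := by
  have hd : Differentiable ℝ (fderiv ℝ W) := (hW.fderiv_right (m := 1) (by norm_num)).differentiable (by norm_num)
  have hv : v = ∑ i, v i • (ei i : E n) := by
    have := ((EuclideanSpace.basisFun (Fin n) ℝ).sum_repr v).symm
    simpa [ei, EuclideanSpace.basisFun_apply, EuclideanSpace.basisFun_repr] using this
  have h1 : ∀ i j, hess W x i j = fderiv ℝ (fderiv ℝ W) x (ei i) (ei j) := by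
    intro i j
    unfold hess pd
    have : (fun x => fderiv ℝ W x (ei j)) = fun x => (ContinuousLinearMap.apply ℝ ℝ (ei j : E n)) (fderiv ℝ W x) := rfl
    rw [this, fderiv_comp' x (ContinuousLinearMap.differentiableAt _) (hd x)]
    simp
  have h2 : fderiv ℝ (fderiv ℝ W) x v v = ∑ i, ∑ j, v i * (v j * fderiv ℝ (fderiv ℝ W) x (ei i) (ei j)) := by
    conv_lhs => rw [hv]
    simp only [map_sum, map_smul, ContinuousLinearMap.sum_apply, ContinuousLinearMap.smul_apply,
      smul_eq_mul, Finset.mul_sum]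
    rw [Finset.sum_comm]
    refine Finset.sum_congr rfl fun i _ => Finset.sum_congr rfl fun j _ => ?_
    ring
  rw [h2]
  unfold qf
  refine Finset.sum_congr rfl fun i _ => Finset.sum_congr rfl fun j _ => ?_
  rw [h1]; ring

/-- second order bounds along lines -/
theorem taylor_bounds {n : ℕ} {W : E n → ℝ} {c C : ℝ} (h : Reg W c C) (x z : E n) :
    c / 2 * ‖z‖ ^ 2 ≤ W (x + z) - W x - fderiv ℝ W x z ∧
      W (x + z) - W x - fderiv ℝ W x z ≤ C / 2 * ‖z‖ ^ 2 := by
  have hW2 : ContDiff ℝ 2 W := h.smooth.of_le (WithTop.coe_le_coe.2 (le_top : (2 : ℕ∞) ≤ ⊤))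
  have hd : Differentiable ℝ W := hW2.differentiable (by norm_num)
  have hd2 : Differentiable ℝ (fderiv ℝ W) := (hW2.fderiv_right (m := 1) (by norm_num)).differentiable (by norm_num)
  have hl : ∀ t : ℝ, HasDerivAt (fun t : ℝ => x + t • z) z t := fun t => by
    simpa using ((hasDerivAt_id t).smul_const z).const_add x
  have d1 : ∀ t : ℝ, HasDerivAt (fun t : ℝ => W (x + t • z)) (fderiv ℝ W (x + t • z) z) t := fun t =>
    (hd (x + t • z)).hasFDerivAt.comp_hasDerivAt t (hl t)
  have d2 : ∀ t : ℝ, HasDerivAt (fun t : ℝ => fderiv ℝ W (x + t • z) z)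
      (fderiv ℝ (fderiv ℝ W) (x + t • z) z z) t := fun t => by
    have := (hd2 (x + t • z)).hasFDerivAt.comp_hasDerivAt t (hl t)
    exact ((ContinuousLinearMap.apply ℝ ℝ z).hasFDerivAt (x := fderiv ℝ W (x + t • z))).comp_hasDerivAt t this
  -- monotonicity of `t ↦ W (x + t z) - t D W z - (c/2) t² |z|²` etc.
  have key : ∀ (a : ℝ) (s : ℝ), (∀ t : ℝ, 0 ≤ s * (fderiv ℝ (fderiv ℝ W) (x + t • z) z z - a)) →
      0 ≤ s * (W (x + z) - W x - fderiv ℝ W x z - a / 2) := by
    intro a s hs
    -- first derivative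
    have m1 : Monotone (fun t : ℝ => s * (fderiv ℝ W (x + t • z) z - a * t)) := by
      apply monotone_of_deriv_nonneg
      · exact fun t => (((d2 t).sub ((hasDerivAt_id t).const_mul a)).const_mul s).differentiableAt
      · intro t
        have := (((d2 t).sub ((hasDerivAt_id t).const_mul a)).const_mul s).deriv
        simp only [mul_one, id] at this
        have e : deriv (fun t : ℝ => s * (fderiv ℝ W (x + t • z) z - a * t)) t
          = s * (fderiv ℝ (fderiv ℝ W) (x + t • z) z z - a) := this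
        rw [e]; exact hs t
    have m2 : MonotoneOn (fun t : ℝ => s * (W (x + t • z) - t * fderiv ℝ W x z - a / 2 * t ^ 2)) (Set.Icc 0 1) := by
      have hD : ∀ t : ℝ, HasDerivAt (fun t : ℝ => s * (W (x + t • z) - t * fderiv ℝ W x z - a / 2 * t ^ 2))
          (s * (fderiv ℝ W (x + t • z) z - a * t) - s * (fderiv ℝ W x z)) t := by
        intro t
        have h3 := ((((d1 t).sub ((hasDerivAt_id t).mul_const (fderiv ℝ W x z))).sub
          (((hasDerivAt_id t).pow 2).const_mul (a / 2))).const_mul s)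
        refine HasDerivAt.congr_deriv h3 ?_
        simp
        ring
      apply monotoneOn_of_deriv_nonneg (convex_Icc 0 1)
      · exact fun t _ => (hD t).continuousAt.continuousWithinAt
      · exact fun t _ => (hD t).differentiableAt.differentiableWithinAt
      · intro t ht
        rw [interior_Icc] at ht
        rw [(hD t).deriv]
        have := m1 ht.1.le
        simp only [zero_smul, add_zero, mul_zero, sub_zero] at this
        linarith
    have := m2 (Set.left_mem_Icc.2 zero_le_one) (Set.right_mem_Icc.2 zero_le_one) zero_le_one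
    simp only [zero_smul, add_zero, one_smul] at this
    nlinarith [this]
  have q := fun t : ℝ => qf_hess hW2 (x + t • z) z
  constructor
  · have := key (c * ‖z‖ ^ 2) 1 (fun t => by
      have := h.lower (x + t • z) z
      rw [q t] at this
      linarith)
    linarith
  · have := key (C * ‖z‖ ^ 2) (-1) (fun t => by
      have := h.upper (x + t • z) z
      rw [q t] at this
      linarith)
    linarith

/-- the pairing -/
noncomputable abbrev BB (n : ℕ) : E n →L[ℝ] E n →L[ℝ] ℝ := innerSL ℝ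

theorem BB_apply {n : ℕ} (x y : E n) : (BB n) x y = inner ℝ x y := rfl

theorem integrable_gauss {n : ℕ} {c : ℝ} (hc : 0 < c) (R : ℝ) :
    Integrable (fun x : E n => Real.exp (R * ‖x‖) * Real.exp (-(c / 2 * ‖x‖ ^ 2))) volume := by
  have h1 : Integrable (fun x : E n => Real.exp (-(c / 4) * ‖x‖ ^ 2)) volume := by
    have := (GaussianFourier.integrable_cexp_neg_mul_sq_norm_add (V := E n) (b := ((c / 4 : ℝ) : ℂ))
      (by simpa using (by positivity : (0:ℝ) < c / 4)) 0 0).norm
    refine this.congr (Eventually.of_forall fun x => ?_)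
    simp [Complex.norm_exp, ← Complex.ofReal_pow, ← Complex.ofReal_mul, ← Complex.ofReal_neg]
  refine Integrable.mono' (h1.const_mul (Real.exp (R ^ 2 / c))) (by fun_prop) ?_
  refine Eventually.of_forall fun x => ?_
  rw [Real.norm_of_nonneg (by positivity), ← Real.exp_add, ← Real.exp_add]
  apply Real.exp_le_exp.2
  have : 0 ≤ (R - c / 2 * ‖x‖) ^ 2 / c := by positivity
  have e : (R - c / 2 * ‖x‖) ^ 2 / c = R ^ 2 / c - R * ‖x‖ + c / 4 * ‖x‖ ^ 2 := by
    field_simp; ring
  nlinarith

theorem expo_of_le {n : ℕ} {c : ℝ} (hc : 0 < c) {g : E n → ℝ} (hg : Continuous g) (K R0 : ℝ)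
    (hle : ∀ x, |g x| ≤ K * (Real.exp (R0 * ‖x‖) * Real.exp (-(c / 2 * ‖x‖ ^ 2)))) :
    Expo volume g := by
  refine ⟨hg.aestronglyMeasurable, fun R => ?_⟩
  refine Integrable.mono' ((integrable_gauss hc (R + R0)).const_mul K) (by fun_prop) ?_
  refine Eventually.of_forall fun x => ?_
  rw [Real.norm_of_nonneg (by positivity), Real.norm_eq_abs, add_mul, Real.exp_add]
  calc Real.exp (R * ‖x‖) * |g x|
      ≤ Real.exp (R * ‖x‖) * (K * (Real.exp (R0 * ‖x‖) * Real.exp (-(c / 2 * ‖x‖ ^ 2)))) :=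
        mul_le_mul_of_nonneg_left (hle x) (Real.exp_pos _).le
    _ = _ := by ring

/-- `exp (-W)` has all exponential moments -/
theorem expo_exp_neg {n : ℕ} {W : E n → ℝ} {c C : ℝ} (h : Reg W c C) :
    Expo volume (fun x => Real.exp (-W x)) := by
  have hcont : Continuous W := h.smooth.continuous
  refine expo_of_le h.c_pos (by fun_prop) (Real.exp (-W 0)) ‖fderiv ℝ W 0‖ fun x => ?_
  rw [abs_of_pos (Real.exp_pos _), ← Real.exp_add, ← Real.exp_add]
  apply Real.exp_le_exp.2
  have h1 := (taylor_bounds h 0 x).1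
  rw [zero_add] at h1
  have h2 : |fderiv ℝ W 0 x| ≤ ‖fderiv ℝ W 0‖ * ‖x‖ := by
    simpa using (fderiv ℝ W 0).le_opNorm x
  have h3 := neg_abs_le (fderiv ℝ W 0 x)
  linarith

theorem logLap_eq {n : ℕ} (W : E n → ℝ) (y : E n) :
    logLap W y = Real.log (lap (BB n) volume (fun x => Real.exp (-W x)) y) := by
  unfold logLap lap
  congr 1
  refine integral_congr_ae (Eventually.of_forall fun x => ?_)
  simp only [smul_eq_mul, BB_apply]
  rw [← Real.exp_add, sub_eq_add_neg]

theorem lap_exp_pos {n : ℕ} {W : E n → ℝ} {c C : ℝ} (h : Reg W c C) (y : E n) :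
    0 < lap (BB n) volume (fun x => Real.exp (-W x)) y := by
  refine lap_pos (expo_exp_neg h) (fun x => (Real.exp_pos _).le) ?_ y
  have : {x : E n | Real.exp (-W x) ≠ 0} = Set.univ := by
    ext x; simp [(Real.exp_pos _).ne']
  rw [this]
  exact (Measure.measure_univ_ne_zero).2 (NeZero.ne _)

theorem contDiff_logLap {n : ℕ} {W : E n → ℝ} {c C : ℝ} (h : Reg W c C) :
    ContDiff ℝ (⊤ : ℕ∞) (logLap W) := by
  rw [funext (logLap_eq W)]
  exact contDiff_log_lap (expo_exp_neg h) (lap_exp_pos h)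

/-- mean of `⟨x, v⟩` under `exp (⟨x,y⟩ - W x)` -/
noncomputable def tmean {n : ℕ} (W : E n → ℝ) (y v : E n) : ℝ :=
  (∫ x : E n, inner ℝ x v * Real.exp (inner ℝ x y - W x)) / ∫ x : E n, Real.exp (inner ℝ x y - W x)

/-- `j`-th central moment of `⟨x, v⟩` under `exp (⟨x,y⟩ - W x)` -/
noncomputable def tmom {n : ℕ} (W : E n → ℝ) (y v : E n) (j : ℕ) : ℝ :=
  (∫ x : E n, (inner ℝ x v - tmean W y v) ^ j * Real.exp (inner ℝ x y - W x)) /
    ∫ x : E n, Real.exp (inner ℝ x y - W x)

theorem mean_eq {n : ℕ} (W : E n → ℝ) (y v : E n) :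
    mean (BB n) volume (fun x => Real.exp (-W x)) v y = tmean W y v := by
  unfold mean tmean lap
  simp only [smul_eq_mul, BB_apply, sub_eq_add_neg, Real.exp_add]
  congr 1
  refine integral_congr_ae (Eventually.of_forall fun x => ?_)
  simp only
  ring

theorem cmom_eq {n : ℕ} (W : E n → ℝ) (y v : E n) (j : ℕ) :
    cmom (BB n) volume (fun x => Real.exp (-W x)) v y j = tmom W y v j := by
  unfold cmom tmom
  rw [mean_eq]
  unfold lap
  simp only [smul_eq_mul, BB_apply, sub_eq_add_neg, Real.exp_add]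
  congr 1
  refine integral_congr_ae (Eventually.of_forall fun x => ?_)
  simp only
  ring

theorem hasDerivAt_logLap {n : ℕ} {W : E n → ℝ} {c C : ℝ} (h : Reg W c C) (y v : E n) (t : ℝ) :
    HasDerivAt (fun t : ℝ => logLap W (y + t • v)) (tmean W (y + t • v) v) t := by
  have := hasDerivAt_log (expo_exp_neg h) (lap_exp_pos h) y v t
  rw [mean_eq] at this
  simpa only [logLap_eq] using this

theorem hasDerivAt_tmean {n : ℕ} {W : E n → ℝ} {c C : ℝ} (h : Reg W c C) (y v : E n) (t : ℝ) :
    HasDerivAt (fun t : ℝ => tmean W (y + t • v) v) (tmom W (y + t • v) v 2) t := by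
  have := hasDerivAt_mean (expo_exp_neg h) (lap_exp_pos h) y v t
  simpa only [mean_eq, cmom_eq] using this

theorem hasDerivAt_tmom_two {n : ℕ} {W : E n → ℝ} {c C : ℝ} (h : Reg W c C) (y v : E n) (t : ℝ) :
    HasDerivAt (fun t : ℝ => tmom W (y + t • v) v 2) (tmom W (y + t • v) v 3) t := by
  have := hasDerivAt_cmom_two (expo_exp_neg h) (lap_exp_pos h) y v t
  simpa only [cmom_eq] using this

/-- (LD) second line derivative = variance -/
theorem iteratedDeriv_two_logLap {n : ℕ} {W : E n → ℝ} {c C : ℝ} (h : Reg W c C) (y v : E n) (t : ℝ) :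
    iteratedDeriv 2 (fun t : ℝ => logLap W (y + t • v)) t = tmom W (y + t • v) v 2 := by
  rw [iteratedDeriv_succ', show deriv (fun t : ℝ => logLap W (y + t • v)) = fun t : ℝ => tmean W (y + t • v) v
    from funext fun t => (hasDerivAt_logLap h y v t).deriv, iteratedDeriv_one]
  exact (hasDerivAt_tmean h y v t).deriv

/-- (LD) third line derivative = third central moment -/
theorem iteratedDeriv_three_logLap {n : ℕ} {W : E n → ℝ} {c C : ℝ} (h : Reg W c C) (y v : E n) (t : ℝ) :
    iteratedDeriv 3 (fun t : ℝ => logLap W (y + t • v)) t = tmom W (y + t • v) v 3 := by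
  rw [iteratedDeriv_succ', show deriv (fun t : ℝ => logLap W (y + t • v)) = fun t : ℝ => tmean W (y + t • v) v
    from funext fun t => (hasDerivAt_logLap h y v t).deriv, iteratedDeriv_succ',
    show deriv (fun t : ℝ => tmean W (y + t • v) v) = fun t : ℝ => tmom W (y + t • v) v 2
    from funext fun t => (hasDerivAt_tmean h y v t).deriv, iteratedDeriv_one]
  exact (hasDerivAt_tmom_two h y v t).deriv

end Vale.Agent.P227.M.Lap
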