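import Vale.Agent.P227.M.Lap.Bdd
import Vale.Agent.P227.M.LK.LapE

/-! P227, block Lap/LL: `Reg W c C → Reg (logLap W) (1/C) (1/c)`. -/

set_option linter.all false
set_option autoImplicit false

open MeasureTheory Filter Topology Set

namespace Vale.Agent.P227.M.Lap

/-- nonnegative second derivatives on all lines imply convexity -/
theorem convexOn_of_line {n : ℕ} {f : E n → ℝ} (f1 f2 : E n → E n → ℝ → ℝ)
    (h1 : ∀ x v t, HasDerivAt (fun t : ℝ => f (x + t • v)) (f1 x v t) t)
    (h2 : ∀ x v t, HasDerivAt (f1 x v) (f2 x v t) t)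
    (h0 : ∀ x v t, 0 ≤ f2 x v t) : ConvexOn ℝ univ f := by
  refine ⟨convex_univ, fun x _ y _ a b ha hb hab => ?_⟩
  have hc : ConvexOn ℝ univ (fun t : ℝ => f (x + t • (y - x))) := by
    have e1 : deriv (fun t : ℝ => f (x + t • (y - x))) = f1 x (y - x) :=
      funext fun t => (h1 x (y - x) t).deriv
    apply convexOn_univ_of_deriv2_nonneg
    · exact fun t => (h1 x (y - x) t).differentiableAt
    · rw [e1]; exact fun t => (h2 x (y - x) t).differentiableAt
    · intro t
      rw [show (deriv^[2] (fun t : ℝ => f (x + t • (y - x)))) t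
        = deriv (deriv (fun t : ℝ => f (x + t • (y - x)))) t from rfl, e1, (h2 x (y - x) t).deriv]
      exact h0 _ _ _
  have := hc.2 (mem_univ (0 : ℝ)) (mem_univ (1 : ℝ)) ha hb hab
  simp only [smul_eq_mul, mul_zero, mul_one, zero_add, zero_smul, add_zero, one_smul] at this
  have e : x + b • (y - x) = a • x + b • y := by
    rw [show a = 1 - b by linarith, smul_sub, sub_smul, one_smul]; abel
  rw [e] at this
  have e2 : x + (y - x) = y := by abel
  rw [e2] at this
  simpa using this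

/-- convexity implies nonnegative second derivatives on lines -/
theorem line_of_convexOn {n : ℕ} {f : E n → ℝ} (hf : ConvexOn ℝ univ f) (x v : E n)
    (f1 : ℝ → ℝ) (f2 : ℝ) (h1 : ∀ t, HasDerivAt (fun t : ℝ => f (x + t • v)) (f1 t) t)
    (h2 : HasDerivAt f1 f2 0) : 0 ≤ f2 := by
  have hc : ConvexOn ℝ univ (fun t : ℝ => f (x + t • v)) := by
    refine ⟨convex_univ, fun s _ t _ a b ha hb hab => ?_⟩
    have := hf.2 (mem_univ (x + s • v)) (mem_univ (x + t • v)) ha hb hab
    have e : a • (x + s • v) + b • (x + t • v) = x + (a • s + b • t) • v := by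
      have : x = a • x + b • x := by rw [← add_smul, hab, one_smul]
      conv_rhs => rw [this]
      simp only [smul_add, smul_smul, add_smul, smul_eq_mul]
      abel
    rw [e] at this
    exact this
  have hm : Monotone f1 := by
    have h3 : MonotoneOn (deriv (fun t : ℝ => f (x + t • v))) univ :=
      hc.monotoneOn_deriv (fun t _ => (h1 t).differentiableAt)
    have e1 : deriv (fun t : ℝ => f (x + t • v)) = f1 := funext fun t => (h1 t).deriv
    rw [e1] at h3
    exact monotoneOn_univ.1 h3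
  rw [← h2.deriv]
  exact hm.deriv_nonneg

theorem hasDerivAt_line_id {n : ℕ} (x z : E n) (t : ℝ) : HasDerivAt (fun t : ℝ => x + t • z) z t := by
  simpa using ((hasDerivAt_id t).smul_const z).const_add x

theorem hasDerivAt_sq {n : ℕ} (a : ℝ) (x z : E n) (t : ℝ) :
    HasDerivAt (fun t : ℝ => a * ‖x + t • z‖ ^ 2) (a * (2 * inner ℝ (x + t • z) z)) t :=
  ((hasDerivAt_line_id x z t).norm_sq).const_mul a

theorem hasDerivAt_sq2 {n : ℕ} (a : ℝ) (x z : E n) (t : ℝ) :
    HasDerivAt (fun t : ℝ => a * (2 * inner ℝ (x + t • z) z)) (a * (2 * ‖z‖ ^ 2)) t := by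
  have h := (((hasDerivAt_line_id x z t).inner ℝ (hasDerivAt_const t z)).const_mul 2).const_mul a
  refine HasDerivAt.congr_deriv h ?_
  rw [inner_zero_right, zero_add, real_inner_self_eq_norm_sq]

theorem line1 {n : ℕ} {W : E n → ℝ} (hW : ContDiff ℝ (⊤ : ℕ∞) W) (x z : E n) (t : ℝ) :
    HasDerivAt (fun t : ℝ => W (x + t • z)) (fderiv ℝ W (x + t • z) z) t := by
  have hd : Differentiable ℝ W := hW.differentiable (by simp)
  exact (hd (x + t • z)).hasFDerivAt.comp_hasDerivAt t (hasDerivAt_line_id x z t)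

theorem line2 {n : ℕ} {W : E n → ℝ} (hW : ContDiff ℝ (⊤ : ℕ∞) W) (x z : E n) (t : ℝ) :
    HasDerivAt (fun t : ℝ => fderiv ℝ W (x + t • z) z) (qf (hess W (x + t • z)) z) t := by
  have hW2 : ContDiff ℝ 2 W := hW.of_le (WithTop.coe_le_coe.2 (le_top : (2 : ℕ∞) ≤ ⊤))
  have hd2 : Differentiable ℝ (fderiv ℝ W) := (hW2.fderiv_right (m := 1) (by norm_num)).differentiable (by norm_num)
  have := (hd2 (x + t • z)).hasFDerivAt.comp_hasDerivAt t (hasDerivAt_line_id x z t)
  rw [qf_hess hW2]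
  exact ((ContinuousLinearMap.apply ℝ ℝ z).hasFDerivAt (x := fderiv ℝ W (x + t • z))).comp_hasDerivAt t this

theorem reg_logLap {n : ℕ} {W : E n → ℝ} {c C : ℝ} (h : Reg W c C) (hC : 0 < C) :
    Reg (logLap W) (1 / C) (1 / c) := by
  have hc := h.c_pos
  have hsm := contDiff_logLap h
  -- convexity of `W - c/2|x|²` and `C/2|x|² - W`
  have c1 : ConvexOn ℝ univ (fun x : E n => W x - c / 2 * ‖x‖ ^ 2) := by
    refine convexOn_of_line
      (fun x v t => fderiv ℝ W (x + t • v) v - c / 2 * (2 * inner ℝ (x + t • v) v))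
      (fun x v t => qf (hess W (x + t • v)) v - c / 2 * (2 * ‖v‖ ^ 2)) ?_ ?_ ?_
    · exact fun x v t => (line1 h.smooth x v t).sub (hasDerivAt_sq _ x v t)
    · exact fun x v t => (line2 h.smooth x v t).sub (hasDerivAt_sq2 _ x v t)
    · intro x v t
      have := h.lower (x + t • v) v
      linarith
  have c2 : ConvexOn ℝ univ (fun x : E n => C / 2 * ‖x‖ ^ 2 - W x) := by
    refine convexOn_of_line
      (fun x v t => C / 2 * (2 * inner ℝ (x + t • v) v) - fderiv ℝ W (x + t • v) v)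
      (fun x v t => C / 2 * (2 * ‖v‖ ^ 2) - qf (hess W (x + t • v)) v) ?_ ?_ ?_
    · exact fun x v t => (hasDerivAt_sq _ x v t).sub (line1 h.smooth x v t)
    · exact fun x v t => (hasDerivAt_sq2 _ x v t).sub (line2 h.smooth x v t)
    · intro x v t
      have := h.upper (x + t • v) v
      linarith
  have e : LKE.Lap 1 W = logLap W := by
    funext y
    unfold LKE.Lap logLap
    simp only [one_mul]
  have u := LKE.lap_upper hc c1 1
  have l := LKE.lap_lower hC c2 1 (fun y => LKE.integrable_lap hc c1 1 y)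
  rw [e] at u l
  refine ⟨by positivity, hsm, fun y v => ?_, fun y v => ?_, logLap_bdd h⟩
  · have := line_of_convexOn l y v
      (fun t => fderiv ℝ (logLap W) (y + t • v) v - 1 ^ 2 / (2 * C) * (2 * inner ℝ (y + t • v) v))
      (qf (hess (logLap W) (y + (0:ℝ) • v)) v - 1 ^ 2 / (2 * C) * (2 * ‖v‖ ^ 2))
      (fun t => (line1 hsm y v t).sub (hasDerivAt_sq _ y v t))
      ((line2 hsm y v 0).sub (hasDerivAt_sq2 _ y v 0))
    rw [zero_smul, add_zero] at this
    have e1 : 1 ^ 2 / (2 * C) * (2 * ‖v‖ ^ 2) = 1 / C * ‖v‖ ^ 2 := by field_simp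
    linarith
  · have := line_of_convexOn u y v
      (fun t => 1 ^ 2 / (2 * c) * (2 * inner ℝ (y + t • v) v) - fderiv ℝ (logLap W) (y + t • v) v)
      (1 ^ 2 / (2 * c) * (2 * ‖v‖ ^ 2) - qf (hess (logLap W) (y + (0:ℝ) • v)) v)
      (fun t => (hasDerivAt_sq _ y v t).sub (line1 hsm y v t))
      ((hasDerivAt_sq2 _ y v 0).sub (line2 hsm y v 0))
    rw [zero_smul, add_zero] at this
    have e1 : 1 ^ 2 / (2 * c) * (2 * ‖v‖ ^ 2) = 1 / c * ‖v‖ ^ 2 := by field_simp
    linarith

/-- the form used by `LK.RegLL` -/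
theorem regLL : ∀ (n : ℕ) (W : E n → ℝ) (c C : ℝ), Reg W c C → 0 < C →
    Reg (logLap W) (1 / C) (1 / c) := fun _ _ _ _ h hC => reg_logLap h hC

end Vale.Agent.P227.M.Lap
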